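import Vale.Agent.P088.R2.H737.G.GU
import Vale.Agent.P088.R2.H551.RS.Grad
import Vale.Agent.P088.R2.H53.RS.Lt

/-!
# P088, stage 3, row GAIN: the leaves `RSn`, `RSf`
-/

open Set Filter
open scoped ContDiff Topology Matrix

noncomputable section

namespace Vale.Agent.P088.R2.H737.G

open Vale.Agent.P088.LR Vale.Agent.P088.HY
open Vale.Agent.P088.R2.H31.EP
open Vale.Agent.P088.R2.H961.GW
open Vale.Agent.P088.R2.H464.Cu (mid dif rq bf)
open Vale.Agent.P088.R2.H867.EP (Zo Off sd RS)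
open Vale.Agent.P088.R2.H349.EP (FwP Fwb fwD fwD_NB zx zy)
open Vale.Agent.P088.R2.H551.RS (nt Gt RC evRC gf_of GF)
open Vale.Agent.P088.R2.H850.E (lw)

variable {n : ℕ} {q : Cst} {d : Pk n} {z : VV n} {C : ℝ}

/-- **The upper bounds on `RSn`, `RSf`.** -/
theorem up_RS (hn : 1 ≤ n) {k : Zo} (hk : RS k) : RowUp n k nt := by
  refine ⟨fun q => 4 + 2 * fwD n q, fun _ => rfl, ?_⟩
  refine ((EvC.pos.and (evRC hn)).and (H349.EP.EvC.fw hn)).mono ?_
  rintro q ⟨⟨⟨⟨a1, a2, a3, a4, a5, a6, a7, a8, a9, a10⟩, ⟨b1, b2, b3, b4, b5, b6, b7⟩, c1, c2, c3,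
    c4, c5, c6⟩, hc⟩, hC, hw⟩
  refine ⟨by linarith, fun d hd z hz => ?_⟩
  have g := gf_of hc hd hk hz
  have hw := hw d hd
  have hR0 : 0 < q.R := by linarith
  have n1 : 1 ≤ nt q d z := by
    have h1 := g.ar.N
    have h2 : (1 : ℝ) ≤ Real.exp (2 * q.R) := Real.one_le_exp (by linarith)
    have h3 := g.N1
    linarith
  have ex : zx d z = z := by unfold zx; rw [g.fl.Py]
  have ey : zy d z = z := by unfold zy; rw [g.fl.Px]
  have n2 : nt q d z ≤ nt q d z ^ 2 := by nlinarith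
  have hEN : d.E q z ≤ d.N q z := by
    have h1 := g.ar.nm
    have h2 : 0 < d.E q z := Real.exp_pos _
    nlinarith
  have key : ∀ F L : ℝ, Fwb d q F L z (fwD n q) → |L| ≤ (4 + 2 * fwD n q) * nt q d z ^ 2 := by
    intro F L a
    have k1 : |L| ≤ 2 * fwD n q * nt q d z := by
      rcases le_or_gt (d.r2 z) 4 with h4 | h4
      · refine (a.nL h4).trans ?_
        have := g.N1
        have h5 : fwD n q * (d.N q z + d.E q z) ≤ fwD n q * (2 * nt q d z) :=
          mul_le_mul_of_nonneg_left (by linarith) (by linarith)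
        linarith
      · have hr : (2 : ℝ) ≤ √(d.r2 z) := Real.le_sqrt_of_sq_le (by linarith)
        have hc4 := hc.pos.2
        have hq0 : 0 < qq z := by rw [← g.fl.r2]; linarith
        have e1 : d.N q z + d.Gf q z = nt q d z := by
          have e3 : 0 < H710.GP.rr z := Real.sqrt_pos.2 hq0
          have e4 : d.Gf q z =
            q.D 1 0 (d.u q z + Real.log (prS q.e₁ (d.r2 z)), √(d.r2 z)) := rfl
          unfold nt Gt
          rw [if_pos e3, g.Nf, e4, g.fl.u, g.fl.r2]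
          rfl
        have := a.oL (by linarith)
        rw [e1] at this
        have h5 : 0 ≤ fwD n q * nt q d z := by positivity
        linarith
    refine k1.trans ?_
    have h6 : 2 * fwD n q * nt q d z ≤ 2 * fwD n q * nt q d z ^ 2 :=
      mul_le_mul_of_nonneg_left n2 (by linarith)
    nlinarith [sq_nonneg (nt q d z)]
  have key2 : ∀ F : ℝ, F ≤ 4 * nt q d z ^ 2 → F ≤ (4 + 2 * fwD n q) * nt q d z ^ 2 := by
    intro F hF
    have : 0 ≤ 2 * fwD n q * nt q d z ^ 2 := by positivity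
    linarith
  refine ⟨n1, fun _ => key2 _ g.Fx2, fun _ => key2 _ g.Fy2, fun k => ?_, fun k => ?_⟩
  · have a := hw.fx z (hw.lt _ k)
    rw [ex] at a
    exact key _ _ a
  · have a := hw.fy z (hw.lt _ k)
    rw [ey] at a
    exact key _ _ a

/-- Common part of the lower bounds. -/
theorem lo_RS (hn : 1 ≤ n) {k : Zo} (hk : RS k) {m : Cst → Pk n → VV n → ℝ} (κ₀ : Cst → ℝ)
    (hm : EvC fun q => ∀ d : Pk n, PkOk q d → RC n q → ∀ z, d.ch q k z ≠ 0 → GF q d z →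
      q.σ / (2 * q.R) * nt q d z ≤ m q d z) :
    RowLo n k nt fun q d => H747.SW.MA d.sx d.sy (d.W q) (m q d) (κ₀ q) := by
  refine ⟨fun q => q.σ / 384, fun _ => rfl, ?_⟩
  refine ((EvC.pos.and (evRC hn)).and hm).mono ?_
  rintro q ⟨⟨⟨⟨a1, a2, a3, a4, a5, a6, a7, a8, a9, a10⟩, ⟨b1, b2, b3, b4, b5, b6, b7⟩, c1, c2, c3,
    c4, c5, c6⟩, hc⟩, hm⟩
  refine ⟨by positivity, fun d hd z hz => ?_⟩
  have g := gf_of hc hd hk hz
  have hR0 : 0 < q.R := by linarith
  have n1 : 1 ≤ nt q d z := by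
    have h1 := g.ar.N
    have h2 : (1 : ℝ) ≤ Real.exp (2 * q.R) := Real.one_le_exp (by linarith)
    have h3 := g.N1
    linarith
  have hm := hm d hd hc z hz g
  have key : ∀ F : ℝ, nt q d z ^ 2 / 64 ≤ F →
      3 * (q.σ / 384 / q.R * nt q d z ^ 2) ≤ m q d z * F := by
    intro F hF
    have k1 : q.σ / (2 * q.R) * nt q d z * (nt q d z ^ 2 / 64) ≤ m q d z * F :=
      mul_le_mul hm hF (by positivity) (le_trans (by positivity) hm)
    have k2 : nt q d z ^ 2 ≤ nt q d z ^ 3 := pow_le_pow_right₀ n1 (by norm_num)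
    have k3 : q.σ / (128 * q.R) * nt q d z ^ 2 ≤ q.σ / (128 * q.R) * nt q d z ^ 3 :=
      mul_le_mul_of_nonneg_left k2 (by positivity)
    have e1 : 3 * (q.σ / 384 / q.R * nt q d z ^ 2) = q.σ / (128 * q.R) * nt q d z ^ 2 := by
      field_simp
      ring
    have e2 : q.σ / (2 * q.R) * nt q d z * (nt q d z ^ 2 / 64) =
        q.σ / (128 * q.R) * nt q d z ^ 3 := by
      field_simp
      ring
    rw [e1]
    rw [e2] at k1
    linarith
  exact H850.E.lw_MA (key _ g.Fx1) (key _ g.Fy1)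

/-- **The leaf `RSn`** (helper312's letter). -/
theorem lo_RSn (hn : 1 ≤ n) {m : Cst → Pk n → VV n → ℝ} (κ₀ : Cst → ℝ)
    (hm : ∀ q d z, m q d z = q.σ / q.R * d.NG q z) :
    RowLo n .RSn nt fun q d => H747.SW.MA d.sx d.sy (d.W q) (m q d) (κ₀ q) := by
  refine lo_RS hn (Or.inl rfl) κ₀ ?_
  refine ((EvC.cpOk n).and EvC.pos).mono ?_
  rintro q ⟨hcp, ⟨a1, a2, a3, a4, a5, a6, a7, a8, a9, a10⟩, ⟨b1, b2, b3, b4, b5, b6, b7⟩, c1, c2,
    c3, c4, c5, c6⟩ d hd hc z hz g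
  have hR0 : 0 < q.R := by linarith
  have h1 : d.r2 z ≤ (prR q.e₁ + 1) ^ 2 := sd_RSn hz (hcp d hd)
  have h0 := prR_pos q.e₁
  have hr : H710.GP.rr z < H551.RS.rd q := by
    refine lt_of_le_of_lt ?_ hc.rd
    have e : H710.GP.rr z = √(qq z) := rfl
    rw [e, Real.sqrt_le_left (by linarith), ← g.fl.r2]
    exact h1
  have e1 := H551.RS.Gt_near hc hd hr
  have e2 : d.NG q z = nt q d z := by
    unfold nt
    rw [e1]
    rfl
  rw [hm, e2]
  have h3 : 0 ≤ nt q d z := hd.N_pos c1 _ |>.le.trans g.N1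
  refine mul_le_mul_of_nonneg_right ?_ h3
  rw [div_le_div_iff₀ (by positivity) hR0]
  nlinarith

/-- **The leaf `RSf`** (helper53's letter). -/
theorem lo_RSf (hn : 1 ≤ n) (κ₀ : Cst → ℝ) :
    RowLo n .RSf nt fun q d => H747.SW.MA d.sx d.sy (d.W q) (H53.RS.mRSf d q) (κ₀ q) := by
  refine lo_RS hn (Or.inr rfl) κ₀ ?_
  refine (EvC.cpOk n).mono ?_
  intro q hcp d hd hc z hz g
  have h1 : prR q.e₁ ^ 2 ≤ d.r2 z := sd_RSf hz (hcp d hd)
  have h0 := prR_pos q.e₁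
  have hq0 : 0 < qq z := by rw [← g.fl.r2]; exact lt_of_lt_of_le (by positivity) h1
  have e3 : 0 < H710.GP.rr z := Real.sqrt_pos.2 hq0
  have e2 : nt q d z = deriv d.Φ (d.u0 z) +
      q.D 1 0 (d.u0 z + Real.log (prS q.e₁ (qq z)), √(qq z)) := by
    unfold nt Gt
    rw [if_pos e3]
    rfl
  unfold H53.RS.mRSf
  rw [e2]

end Vale.Agent.P088.R2.H737.G
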