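import Vale.Agent.P088.R2.H737.G.GF
import Vale.Agent.P088.R2.H380.INF.Let

/-!
# P088, stage 3, row GAIN: the leaf `iS`
-/

open Set Filter
open scoped ContDiff Topology Matrix

noncomputable section

namespace Vale.Agent.P088.R2.H737.G

open Vale.Agent.P088.LR Vale.Agent.P088.HY
open Vale.Agent.P088.R2.H31.EP
open Vale.Agent.P088.R2.H961.GW
open Vale.Agent.P088.R2.H455.E (NoM)
open Vale.Agent.P088.R2.H867.EP (Zo)
open Vale.Agent.P088.R2.H747.A (GG NG ff rr)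
open Vale.Agent.P088.R2.H850.E (lw)

variable {n : ℕ} {q : Cst} {d : Pk n} {z : VV n}

/-- The upper bounds on the leaf `iS`: everything is bounded by constants before `kv`. -/
def RowUpS (n : ℕ) : Prop := ∃ C : Cst → ℝ, NoM C ∧ EvC fun q => 0 ≤ C q ∧
  ∀ d : Pk n, PkOk q d → ∀ z, d.ch q .iS z ≠ 0 →
    (HY.sq z.1 ≤ 5 * q.R ^ 2 → d.sx.F (d.W q) z + |d.sx.Λ (d.W q) z| ≤ C q) ∧
    (HY.sq z.2 ≤ 5 * q.R ^ 2 → d.sy.F (d.W q) z + |d.sy.Λ (d.W q) z| ≤ C q)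

/-- **The leaf `iS`** (helper380's letters). -/
theorem gl_iS (hU : RowUpS n) {M : H455.E.Fam n} (hM : ∀ q d, M q d .iS = H380.INF.MiS q d) :
    ∃ g : Cst → ℝ, NoM g ∧ H935.G.RowGL M .iS g := by
  obtain ⟨C, hC, hU⟩ := hU
  refine ⟨fun q => q.σ ^ 2 * q.M₀ ^ 2 / (10 ^ 4 * (|C q| + 1)), fun q kv ε η Ck R => ?_, ?_⟩
  · simp only [hC q kv ε η Ck R]
  refine ((EvC.pos.and (ev_ε n)).and hU).mono ?_
  rintro q ⟨⟨⟨-, ⟨-, hσ, -⟩, hM0, -, -, -, -, hR⟩, hε⟩, hC0, hU⟩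
  have hR0 : 0 < q.R := by linarith
  have hM1 : 0 < q.M₀ := by linarith
  refine ⟨by positivity, fun d hd z hz => ?_⟩
  obtain ⟨u1, u2⟩ := hU d hd z hz
  rw [hM]
  have hx : q.M₀ ≤ H380.INF.nX q d z := le_add_of_nonneg_right (hd.Θd0 hR0 _)
  have hy : q.M₀ ≤ H380.INF.nY q d z := le_add_of_nonneg_right (hd.Θd0 hR0 _)
  have fx : 0 ≤ d.sx.F (d.W q) z := by
    have h1 := F_x hd hε (d.W q) z
    have h2 : 0 ≤ ∑ i, d.sx.D i (d.W q) z ^ 2 := Finset.sum_nonneg fun _ _ => sq_nonneg _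
    linarith
  have fy : 0 ≤ d.sy.F (d.W q) z := by
    have h1 := F_y hd hε (d.W q) z
    have h2 : 0 ≤ ∑ i, d.sy.D i (d.W q) z ^ 2 := Finset.sum_nonneg fun _ _ => sq_nonneg _
    linarith
  have key : ∀ F x : ℝ, 0 ≤ F → q.M₀ ≤ x → 1 / 10 ^ 4 * ((q.σ / q.R) * q.M₀) ^ 2 ≤
      1 / 100 * (q.σ / q.R) * x * F / 2 + 1 / 10 ^ 4 * ((q.σ / q.R) * x) ^ 2 := by
    intro F x hF hx
    have k1 : ((q.σ / q.R) * q.M₀) ^ 2 ≤ ((q.σ / q.R) * x) ^ 2 :=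
      pow_le_pow_left₀ (by positivity) (mul_le_mul_of_nonneg_left hx (by positivity)) 2
    have k2 : 0 ≤ 1 / 100 * (q.σ / q.R) * x * F / 2 := by
      have : 0 ≤ x := by linarith
      positivity
    linarith
  have hl : 1 / 10 ^ 4 * ((q.σ / q.R) * q.M₀) ^ 2 ≤ lw (H380.INF.MiS q d) z := by
    unfold lw H380.INF.MiS
    simp only [min_self, mul_zero, add_zero]
    exact le_min (key _ _ fx hx) (key _ _ fy hy)
  have hb : q.σ ^ 2 * q.M₀ ^ 2 / (10 ^ 4 * (|C q| + 1)) * (q.R ^ 2)⁻¹ * (|C q| + 1) =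
      1 / 10 ^ 4 * ((q.σ / q.R) * q.M₀) ^ 2 := by
    have : |C q| + 1 ≠ 0 := by positivity
    field_simp
  have b0 : 0 ≤ q.σ ^ 2 * q.M₀ ^ 2 / (10 ^ 4 * (|C q| + 1)) * (q.R ^ 2)⁻¹ := by positivity
  have hCC : C q ≤ |C q| := le_abs_self _
  refine ⟨fun h => ?_, fun h => ?_, ?_⟩
  · refine le_trans ?_ hl
    rw [← hb]
    have u3 : (H551.E.fy d.s₂).F (d.W q) z + |(H551.E.fy d.s₂).Λ (d.W q) z| ≤ C q := u2 h
    exact mul_le_mul_of_nonneg_left (by linarith) b0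
  · refine le_trans ?_ hl
    rw [← hb]
    have u3 : (H551.E.fx d.s₁).F (d.W q) z + |(H551.E.fx d.s₁).Λ (d.W q) z| ≤ C q := u1 h
    exact mul_le_mul_of_nonneg_left (by linarith) b0
  · refine le_trans ?_ hl
    rw [← hb]
    exact le_mul_of_one_le_right b0 (by linarith [abs_nonneg (C q)])

end Vale.Agent.P088.R2.H737.G
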