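import Vale.Agent.P088.R2.H737.G.GA
import Vale.Agent.P088.R2.H737.G.GR
import Vale.Agent.P088.R2.H737.G.GS
import Vale.Agent.P088.R2.H509.EP.TG
import Vale.Agent.P088.R2.H303.F.Lt
import Vale.Agent.P088.R2.H455.E.Lett

/-!
# P088, stage 3, row GAIN: the far leaves for the letters `L`

`gl_T1`, `gl_T2`, `gl_A`, `gl_iF`, `gl_RSn`, `gl_RSf`.
-/

open Set Filter
open scoped ContDiff Topology Matrix

noncomputable section

namespace Vale.Agent.P088.R2.H737.G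

open Vale.Agent.P088.LR Vale.Agent.P088.HY
open Vale.Agent.P088.R2.H31.EP
open Vale.Agent.P088.R2.H455.E (Lc Mz NoM)
open Vale.Agent.P088.R2.H867.EP (Zo Off RS)
open Vale.Agent.P088.R2.H747.A (GG NG)
open Vale.Agent.P088.R2.H935.G (RowGL)

variable {n : ℕ} {L : Lc n}

/-! ## The tubes -/

theorem tub_T1 (n : ℕ) : RowTub n .T1 := by
  refine ⟨fun q => Real.exp 2 * q.ν₁, fun _ => rfl, ?_⟩
  refine ((EvC.pos.and (H509.TG.evGT n)).and (EvC.litSm n)).mono ?_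
  rintro q ⟨⟨⟨⟨a1, a2, a3, a4, a5, a6, a7, a8⟩, p⟩, hq⟩, hL⟩
  exact ⟨by positivity, fun d hd z hz => (H509.TG.alive_T1 hq hd (hL d hd) hz).1.lo hq hd⟩

theorem tub_T2 (n : ℕ) : RowTub n .T2 := by
  refine ⟨fun q => Real.exp 2 * q.ν₁, fun _ => rfl, ?_⟩
  refine ((EvC.pos.and (H509.TG.evGT n)).and (EvC.litSm n)).mono ?_
  rintro q ⟨⟨⟨⟨a1, a2, a3, a4, a5, a6, a7, a8⟩, p⟩, hq⟩, hL⟩
  exact ⟨by positivity, fun d hd z hz => (H509.TG.alive_T2 hq hd (hL d hd) hz).1.lo hq hd⟩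

theorem NB_R_rT {c : Cst → ℝ} (h : NB_rT c) : NB_R c := fun q => by
  rw [← h q.b_R, ← h q]
  rfl

theorem NB_R_c' {c : Cst → ℝ} (h : NB_c' c) : NB_R c := fun q => by
  rw [← h q.b_R, ← h q]
  rfl

theorem ev1 : EvC fun _ => (0 : ℝ) < 1 := EvC.of fun _ => one_pos

/-- The leaf `T1`. -/
theorem gl_T1 (hn : 1 ≤ n) (hL : L.Ok) : RowGL (Mz L) .T1 fun _ => 1 :=
  rowGL_of (up_Off hn (by unfold Off; decide))
    (lo_T1 (NB_R_rT hL.cT.2) (EvC.of hL.cT.1) (tub_T1 n)) (fun _ => rfl) ev1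

/-- The leaf `T2`. -/
theorem gl_T2 (hn : 1 ≤ n) (hL : L.Ok) : RowGL (Mz L) .T2 fun _ => 1 :=
  rowGL_of (up_Off hn (by unfold Off; decide))
    (lo_T2 (NB_R_rT hL.cT.2) (EvC.of hL.cT.1) (tub_T2 n)) (fun _ => rfl) ev1

/-! ## Zone A -/

/-- The leaf `A1`. -/
theorem gl_A1 (hn : 1 ≤ n) (hL : L.Ok) (hS : H747.A.RowSup n) :
    RowGL (Mz L) .A1 fun _ => 1 :=
  rowGL_of (up_Off hn (by unfold Off; decide)) (lo_A n hS L.μA hL.μA.1 L.kA (by simp))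
    (fun _ => rfl) ev1

/-- The leaf `A2`. -/
theorem gl_A2 (hn : 1 ≤ n) (hL : L.Ok) (hS : H747.A.RowSup n) :
    RowGL (Mz L) .A2 fun _ => 1 :=
  rowGL_of (up_Off hn (by unfold Off; decide)) (lo_A n hS L.μA hL.μA.1 L.kA (by simp))
    (fun _ => rfl) ev1

/-- The leaf `Af`. -/
theorem gl_Af (hn : 1 ≤ n) (hL : L.Ok) (hS : H747.A.RowSup n) :
    RowGL (Mz L) .Af fun _ => 1 :=
  rowGL_of (up_Off hn (by unfold Off; decide)) (lo_A n hS L.μA hL.μA.1 L.kA (by simp))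
    (fun _ => rfl) ev1

/-! ## `RSn`, `RSf`, `iF` -/

/-- The leaf `RSn`. -/
theorem gl_RSn (hn : 1 ≤ n) {m : Cst → Pk n → VV n → ℝ} {κ₀ : Cst → ℝ}
    (hm : ∀ q d z, m q d z = q.σ / q.R * d.NG q z)
    (hF : ∀ q d, L.FM .RSn q d = H747.SW.MA d.sx d.sy (d.W q) (m q d) (κ₀ q)) :
    RowGL (Mz L) .RSn fun _ => 1 := by
  have e : (fun q d => Mz L q d .RSn) =
      fun q (d : Pk n) => H747.SW.MA d.sx d.sy (d.W q) (m q d) (κ₀ q) :=
    funext fun q => funext fun d => hF q d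
  refine rowGL_of (up_RS hn (by unfold RS; decide)) ?_ (fun _ => rfl) ev1
  rw [e]
  exact lo_RSn hn κ₀ hm

/-- The leaf `RSf`. -/
theorem gl_RSf (hn : 1 ≤ n) {κ₀ : Cst → ℝ}
    (hF : ∀ q d, L.FM .RSf q d = H747.SW.MA d.sx d.sy (d.W q) (H53.RS.mRSf d q) (κ₀ q)) :
    RowGL (Mz L) .RSf fun _ => 1 := by
  have e : (fun q d => Mz L q d .RSf) =
      fun q (d : Pk n) => H747.SW.MA d.sx d.sy (d.W q) (H53.RS.mRSf d q) (κ₀ q) :=
    funext fun q => funext fun d => hF q d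
  refine rowGL_of (up_RS hn (by unfold RS; decide)) ?_ (fun _ => rfl) ev1
  rw [e]
  exact lo_RSf hn κ₀

/-- The leaf `iF`. -/
theorem gl_iF (hn : 1 ≤ n) (hG : H303.F.RowG n)
    (hF : ∀ q d, L.FM .iF q d = H303.F.MzF q d) : RowGL (Mz L) .iF fun _ => 1 := by
  have e : (fun q d => Mz L q d .iF) = fun q (d : Pk n) => H303.F.MzF q d :=
    funext fun q => funext fun d => hF q d
  refine rowGL_of (up_iF hn) ?_ (fun _ => rfl) ev1
  rw [e]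
  exact lo_iF (by norm_num) (1 / 200) hG

end Vale.Agent.P088.R2.H737.G
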