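import Vale.Agent.P088.R2.H737.G.GF
import Vale.Agent.P088.R2.H349.EP.FW5

/-!
# P088, stage 3, row GAIN: the upper bounds on the leaves off the diagonal and on `iF`

From helper349's `EvC.fw`: `F, |Λ W| ≤ C (N + G)²` where both points are not moved and `r ≥ c₀ / 2`.
-/

open Set Filter
open scoped ContDiff Topology Matrix

noncomputable section

namespace Vale.Agent.P088.R2.H737.G

open Vale.Agent.P088.LR Vale.Agent.P088.HY
open Vale.Agent.P088.R2.H31.EP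
open Vale.Agent.P088.R2.H961.GW
open Vale.Agent.P088.R2.H464.Cu (mid dif rq bf)
open Vale.Agent.P088.R2.H867.EP (Zo Off sd)
open Vale.Agent.P088.R2.H349.EP (FwP Fwb fwD fwD_NB zx zy)
open Vale.Agent.P088.R2.H747.A (GG NG ff rr lS D₂)

variable {n : ℕ} {q : Cst} {d : Pk n} {z : VV n} {C : ℝ}

theorem Gf_eq (h0 : 0 ≤ d.r2 z) : d.Gf q z = GG q d z := by
  have hs : √(d.r2 z) ^ 2 = d.r2 z := Real.sq_sqrt h0
  have e2 : GG q d z = q.D 1 0 (d.u q z + Real.log (prS q.e₁ (√(d.r2 z) ^ 2)), √(d.r2 z)) := rfl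
  rw [e2, hs]
  rfl

theorem NG_ge1 (h : PkOk q d) (hM : 1 ≤ q.M₀) (h0 : 0 < d.r2 z) : 1 ≤ NG q d z := by
  have hG := GG_pos h h0
  have hN : 1 ≤ d.N q z := hM.trans (h.N_ge _)
  have e : NG q d z = d.N q z + GG q d z := rfl
  rw [e]
  linarith

/-- Where the points are not moved and `r ≥ c₀ / 2`. -/
theorem up_off (hC : 1 ≤ C) (h : PkOk q d) (hw : FwP q d C) (hM : 1 ≤ q.M₀) (hc : 0 < q.c₀)
    (hr : q.c₀ / 2 ≤ √(d.r2 z))
    (h1 : HY.sq z.2 ≤ 5 * q.R ^ 2 → d.P z.1 = z.1)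
    (h2 : HY.sq z.1 ≤ 5 * q.R ^ 2 → d.P z.2 = z.2) : UpZ q d (NG q d z) C z := by
  have hr0 : 0 < d.r2 z := Real.sqrt_pos.1 (lt_of_lt_of_le (by linarith) hr)
  have e1 := Gf_eq (q := q) (d := d) hr0.le
  have n1 := NG_ge1 (q := q) h hM hr0
  have n2 : NG q d z ≤ NG q d z ^ 2 := by nlinarith
  have n3 : C * NG q d z ≤ C * NG q d z ^ 2 := mul_le_mul_of_nonneg_left n2 (by linarith)
  have eN : NG q d z = d.N q z + d.Gf q z := by rw [e1]; rfl
  refine ⟨n1, fun k => ?_, fun k => ?_, fun k => ?_, fun k => ?_⟩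
  · have a := hw.fx z (hw.lt _ k)
    have ex : zx d z = z := by unfold zx; rw [h2 k]
    rw [ex] at a
    rw [eN]
    exact a.oF hr
  · have a := hw.fy z (hw.lt _ k)
    have ey : zy d z = z := by unfold zy; rw [h1 k]
    rw [ey] at a
    rw [eN]
    exact a.oF hr
  · have a := hw.fx z (hw.lt _ k)
    have ex : zx d z = z := by unfold zx; rw [h2 k]
    rw [ex] at a
    refine le_trans ?_ n3
    rw [eN]
    exact a.oL hr
  · have a := hw.fy z (hw.lt _ k)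
    have ey : zy d z = z := by unfold zy; rw [h1 k]
    rw [ey] at a
    refine le_trans ?_ n3
    rw [eN]
    exact a.oL hr

theorem Off_inf {k : Zo} (hk : Off k) : sd k .inf = false := by
  rcases hk with rfl | rfl | rfl | rfl | rfl | rfl | rfl <;> decide

/-- **The leaves off the diagonal.** -/
theorem up_Off (hn : 1 ≤ n) {k : Zo} (hk : Off k) : RowUp n k NG := by
  refine ⟨fwD n, fun _ => rfl, ?_⟩
  refine (((EvC.pos.and H404.INF.evInf).and (H349.EP.EvC.fw hn)).and (EvC.cpOk n)).mono ?_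
  rintro q ⟨⟨⟨⟨⟨a1, a2, a3, a4, a5, a6, a7, a8, a9, a10⟩, ⟨b1, b2, b3, b4, b5, b6, b7⟩, c1, c2, c3,
    c4, c5, c6⟩, hI⟩, hC, hw⟩, hcp⟩
  refine ⟨by linarith, fun d hd z hz => ?_⟩
  have hR := hI.R0
  have hno := H404.INF.near_supp hI hd (Off_inf hk) (subset_tsupport _ hz)
  have l1 := (H404.INF.gl_le hI hd).1 hno.g1
  have l2 := (H404.INF.gl_le hI hd).1 hno.g2
  have hr : q.c₀ ^ 2 ≤ d.r2 z := sd_off hz hk (hcp d hd)
  have hr' : q.c₀ / 2 ≤ √(d.r2 z) := by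
    refine le_trans ?_ (Real.le_sqrt_of_sq_le hr)
    linarith
  exact up_off hC hd (hw d hd) c1 (by assumption) hr' (fun _ => (hw d hd).id _ (by linarith))
    fun _ => (hw d hd).id _ (by linarith)

/-- **The leaf `iF`.** -/
theorem up_iF (hn : 1 ≤ n) : RowUp n .iF NG := by
  refine ⟨fwD n, fun _ => rfl, ?_⟩
  have hc : EvC fun q => q.c₀ ≤ 1 := EvC.at_c₀ (fun _ t => t ≤ 1) fun _ => sml_le (by norm_num)
  refine ((((EvC.pos.and H404.INF.evInf).and (H349.EP.EvC.fw hn)).and (ev_far n)).and hc).mono ?_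
  rintro q ⟨⟨⟨⟨⟨⟨a1, a2, a3, a4, a5, a6, a7, a8, a9, a10⟩, ⟨b1, b2, b3, b4, b5, b6, b7⟩, c1, c2, c3,
    c4, c5, c6⟩, hI⟩, hC, hw⟩, hf⟩, hc⟩
  refine ⟨by linarith, fun d hd z hz => ?_⟩
  have hR := hI.R0
  have hno := H404.INF.far_supp hI hd (subset_tsupport _ hz)
  have hO : z ∈ H303.F.OmP q d := H303.F.far_OmP hI hno hd
  have h4 := hf d hd z hO.1
  have l1 := (H404.INF.gl_le hI hd).1 hno.g1
  have l2 := (H404.INF.gl_le hI hd).1 hno.g2
  have hr' : q.c₀ / 2 ≤ √(d.r2 z) := by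
    have : (2 : ℝ) ≤ √(d.r2 z) := Real.le_sqrt_of_sq_le (by linarith)
    linarith
  exact up_off hC hd (hw d hd) c1 (by assumption) hr' (fun _ => hd.ret.id _ (by linarith))
    fun _ => hd.ret.id _ (by linarith)

end Vale.Agent.P088.R2.H737.G
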