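import Vale.Agent.P088.R2.H850.E.LwL
import Vale.Agent.P088.R2.H747.A.Rows
import Vale.Agent.P088.R2.H509.EP.Side
import Vale.Agent.P088.R2.H281.EP.Prs
import Vale.Agent.P088.R2.H935.G.Gp

/-!
# P088, stage 3, row GAIN: the far leaves, general part

`UpZ`: the upper bounds of `Γ(W, W)`, `|Λ W|` by `C NG²`; `RowLo`: the lower bound `c / R NG²` of the
margin of `a² + b²`; together they pay the gains `b = g / R²`.
-/

open Set Filter
open scoped ContDiff Topology Matrix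

noncomputable section

namespace Vale.Agent.P088.R2.H737.G

open Vale.Agent.P088.LR Vale.Agent.P088.HY
open Vale.Agent.P088.R2.H31.EP
open Vale.Agent.P088.R2.H961.GW
open Vale.Agent.P088.R2.H464.Cu (mid dif rq bf)
open Vale.Agent.P088.R2.H222 (dl)
open Vale.Agent.P088.R2.H867.EP (Zo)
open Vale.Agent.P088.R2.H747.A (OmA OmB GG NG ff rr lS D₂ Wx2 Wy2 mA)
open Vale.Agent.P088.R2.H850.E (lw)

variable {n : ℕ} {q : Cst} {d : Pk n} {z : VV n}

/-! ## Numbers -/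

/-- `F, L ≤ C a²`, `c a² ≤ w`, `b` small: the gain is paid. -/
theorem pay {b F L C c a w : ℝ} (ha : 1 ≤ a) (hb : 0 ≤ b) (hF : F ≤ C * a ^ 2)
    (hL : L ≤ C * a ^ 2) (hw : c * a ^ 2 ≤ w) (h : b * (2 * C + 1) ≤ c) :
    b * (F + L + 1) ≤ w := by
  have h1 : (1 : ℝ) ≤ a ^ 2 := one_le_pow₀ ha
  have h2 : F + L + 1 ≤ (2 * C + 1) * a ^ 2 := by nlinarith
  have h3 : b * (F + L + 1) ≤ b * ((2 * C + 1) * a ^ 2) := mul_le_mul_of_nonneg_left h2 hb
  have h4 : b * (2 * C + 1) * a ^ 2 ≤ c * a ^ 2 := mul_le_mul_of_nonneg_right h (sq_nonneg _)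
  nlinarith

theorem pay0 {b C c a w : ℝ} (ha : 1 ≤ a) (hb : 0 ≤ b) (hC : 0 ≤ C) (hw : c * a ^ 2 ≤ w)
    (h : b * (2 * C + 1) ≤ c) : b ≤ w := by
  have := pay (F := 0) (L := 0) ha hb (by positivity) (by positivity) hw h
  linarith

/-- `g / R²` is small against `c / R`. -/
theorem evb {g C c : Cst → ℝ} (hg : NB_R g) (hC : NB_R C) (hc : NB_R c) :
    EvC fun q => 0 < c q → g q * (q.R ^ 2)⁻¹ * (2 * C q + 1) ≤ c q / q.R := by
  have h := EvC.at_R (fun q t => 0 < c q → g q * (t ^ 2)⁻¹ * (2 * C q + 1) ≤ c q / t) fun q => by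
    by_cases h : 0 < c q
    · filter_upwards [eventually_ge_atTop (max 1 (g q * (2 * C q + 1) / c q))] with t ht _
      have t1 : 1 ≤ t := (le_max_left _ _).trans ht
      have t2 : g q * (2 * C q + 1) / c q ≤ t := (le_max_right _ _).trans ht
      have t0 : 0 < t := by linarith
      rw [div_le_iff₀ h] at t2
      rw [le_div_iff₀ t0]
      calc g q * (t ^ 2)⁻¹ * (2 * C q + 1) * t = g q * (2 * C q + 1) / t := by field_simp
        _ ≤ c q := by rw [div_le_iff₀ t0]; linarith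
    · exact Eventually.of_forall fun _ h1 => absurd h1 h
  refine h.mono fun q hq => ?_
  have e1 := hg q
  have e2 := hC q
  have e3 := hc q
  simp only [e1, e2, e3] at hq
  exact hq

/-- `G0 R = R^(-7/2)` is small against `c / R`. -/
theorem ev0 {g : Cst → ℝ} (hg : NB_R g) :
    EvC fun q => 0 < g q → 8 * H455.E.G0 q.R ≤ g q * (q.R ^ 2)⁻¹ := by
  have h := EvC.at_R (fun q t => 0 < g q → 8 * H455.E.G0 t ≤ g q * (t ^ 2)⁻¹) fun q => by
    by_cases h : 0 < g q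
    · have hT : Tendsto (fun t : ℝ => t ^ (3 / 2 : ℝ)) atTop atTop :=
        tendsto_rpow_atTop (by norm_num)
      filter_upwards [eventually_ge_atTop 1, hT.eventually_ge_atTop (8 / g q)] with t t1 t2 _
      have t0 : 0 < t := by linarith
      have e1 : t ^ (-(7 / 2) : ℝ) = (t ^ (3 / 2 : ℝ))⁻¹ * (t ^ 2)⁻¹ := by
        rw [← Real.rpow_natCast t 2, ← Real.rpow_neg t0.le, ← Real.rpow_neg t0.le,
          ← Real.rpow_add t0]
        norm_num
      have t3 : 0 < t ^ (3 / 2 : ℝ) := Real.rpow_pos_of_pos t0 _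
      unfold H455.E.G0
      rw [e1, ← mul_assoc]
      refine mul_le_mul_of_nonneg_right ?_ (by positivity)
      rw [div_le_iff₀ h] at t2
      rw [← div_eq_mul_inv, div_le_iff₀ t3]
      linarith
    · exact Eventually.of_forall fun _ h1 => absurd h1 h
  refine h.mono fun q hq => ?_
  have e1 := hg q
  simp only [e1] at hq
  exact hq

/-! ## The rows -/

/-- A scale: a function of the constants, the data and the point. -/
abbrev Scl (n : ℕ) : Type := Cst → Pk n → VV n → ℝ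

/-- The upper bounds at a point, scale `a`. -/
structure UpZ (q : Cst) (d : Pk n) (a C : ℝ) (z : VV n) : Prop where
  n1 : 1 ≤ a
  fx : HY.sq z.1 ≤ 5 * q.R ^ 2 → d.sx.F (d.W q) z ≤ C * a ^ 2
  fy : HY.sq z.2 ≤ 5 * q.R ^ 2 → d.sy.F (d.W q) z ≤ C * a ^ 2
  lx : HY.sq z.1 ≤ 5 * q.R ^ 2 → |d.sx.Λ (d.W q) z| ≤ C * a ^ 2
  ly : HY.sq z.2 ≤ 5 * q.R ^ 2 → |d.sy.Λ (d.W q) z| ≤ C * a ^ 2

/-- The upper bounds on the leaf `k`. -/
def RowUp (n : ℕ) (k : Zo) (a : Scl n) : Prop := ∃ C : Cst → ℝ, NB_R C ∧ EvC fun q => 0 ≤ C q ∧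
  ∀ d : Pk n, PkOk q d → ∀ z, d.ch q k z ≠ 0 → UpZ q d (a q d z) (C q) z

/-- The lower bound of the margin on the leaf `k`. -/
def RowLo (n : ℕ) (k : Zo) (a : Scl n) (M : Cst → Pk n → H551.E.Q8 (VV n)) : Prop :=
  ∃ c : Cst → ℝ, NB_R c ∧ EvC fun q => 0 < c q ∧ ∀ d : Pk n, PkOk q d → ∀ z,
    d.ch q k z ≠ 0 → c q / q.R * a q d z ^ 2 ≤ lw (M q d) z

/-- **The gains are paid where the two rows hold.** -/
theorem rowGL_of {k : Zo} {a : Scl n} {M : H455.E.Fam n} {g : Cst → ℝ} (hU : RowUp n k a)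
    (hL : RowLo n k a fun q d => M q d k) (hg : NB_R g) (hg0 : EvC fun q => 0 < g q) :
    H935.G.RowGL M k g := by
  obtain ⟨C, hC, hU⟩ := hU
  obtain ⟨c, hc, hL⟩ := hL
  refine (((hU.and hL).and ((evb hg hC hc).and EvC.pos)).and hg0).mono ?_
  rintro q ⟨⟨⟨⟨hC0, hU⟩, hc0, hL⟩, hb, -, -, -, -, -, -, -, hR⟩, hg0⟩
  refine ⟨hg0, fun d hd z hz => ?_⟩
  have u := hU d hd z hz
  have l := hL d hd z hz
  have b0 : 0 ≤ g q * (q.R ^ 2)⁻¹ := by positivity
  exact ⟨fun h => pay u.n1 b0 (u.fy h) (u.ly h) l (hb hc0),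
    fun h => pay u.n1 b0 (u.fx h) (u.lx h) l (hb hc0), pay0 u.n1 b0 hC0 l (hb hc0)⟩

/-- **The gain of order zero** (helper850's row `RowG0`), a corollary. -/
theorem rowG0_of {M : H455.E.Fam n} {g : Zo → Cst → ℝ} (hg : ∀ k, H455.E.NoM (g k))
    (h : ∀ k, H935.G.RowGL M k (g k)) : EvC fun q => ∀ d : Pk n, PkOk q d → ∀ k z,
      d.ch q k z ≠ 0 → 8 * H455.E.G0 q.R ≤ lw (M q d k) z := by
  have h1 : EvC fun q => ∀ k, (0 < g k q → 8 * H455.E.G0 q.R ≤ g k q * (q.R ^ 2)⁻¹) ∧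
      (0 < g k q ∧ ∀ d : Pk n, PkOk q d → ∀ z, d.ch q k z ≠ 0 →
        H935.G.GLe q d (M q d k) (g k q * (q.R ^ 2)⁻¹) z) :=
    H455.E.evZo (P := fun k q => (0 < g k q → 8 * H455.E.G0 q.R ≤ g k q * (q.R ^ 2)⁻¹) ∧
      (0 < g k q ∧ ∀ d : Pk n, PkOk q d → ∀ z, d.ch q k z ≠ 0 →
        H935.G.GLe q d (M q d k) (g k q * (q.R ^ 2)⁻¹) z))
      fun k => (ev0 fun q => hg k q q.kv q.ε q.η q.Ck 0).and (h k)
  exact h1.mono fun q hq d hd k z hz =>
    ((hq k).1 (hq k).2.1).trans ((hq k).2.2 d hd z hz).o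

/-! ## Geometry -/

/-- The second tensor is close to `1`. -/
theorem s₂_close (h : PkOk q d) (x : V n) (i j : Fin n) : |d.s₂ x i j - dl i j| ≤ q.ε := by
  have := h.rg.cl₂ i j 0 (by norm_num) x
  rwa [norm_iteratedFDeriv_zero, pow_zero, mul_one, Real.norm_eq_abs] at this

/-- `F ≥ |W_x|² / 2`. -/
theorem F_x (h : PkOk q d) (hε : n * q.ε ≤ 1 / 2) (W : VV n → ℝ) (z : VV n) :
    1 / 2 * ∑ i, d.sx.D i W z ^ 2 ≤ d.sx.F W z := by
  have h1 := bf_close (h.s₁_close z.1) (fun i => d.sx.D i W z)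
  have h2 : d.sx.F W z = bf (d.s₁ z.1) (fun i => d.sx.D i W z) (fun i => d.sx.D i W z) := rfl
  have h3 : 0 ≤ ∑ i, d.sx.D i W z ^ 2 := Finset.sum_nonneg fun _ _ => sq_nonneg _
  rw [h2]
  have h4 := (abs_le.1 h1).1
  have h5 := mul_le_mul_of_nonneg_right hε h3
  linarith

theorem F_y (h : PkOk q d) (hε : n * q.ε ≤ 1 / 2) (W : VV n → ℝ) (z : VV n) :
    1 / 2 * ∑ i, d.sy.D i W z ^ 2 ≤ d.sy.F W z := by
  have h1 := bf_close (s₂_close h z.2) (fun i => d.sy.D i W z)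
  have h2 : d.sy.F W z = bf (d.s₂ z.2) (fun i => d.sy.D i W z) (fun i => d.sy.D i W z) := rfl
  have h3 : 0 ≤ ∑ i, d.sy.D i W z ^ 2 := Finset.sum_nonneg fun _ _ => sq_nonneg _
  rw [h2]
  have h4 := (abs_le.1 h1).1
  have h5 := mul_le_mul_of_nonneg_right hε h3
  linarith

theorem ev_ε (n : ℕ) : EvC fun q => (n : ℝ) * q.ε ≤ 1 / 2 := by
  have hε : EvC fun q => 0 < (1 : ℝ) / (2 * (n + 1)) → q.ε ≤ 1 / (2 * (n + 1)) :=
    EvC.ε_le (fun _ => 1 / (2 * (n + 1))) fun _ => rfl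
  refine (hε.and EvC.pos).mono ?_
  rintro q ⟨e1, -, -, -, -, e2, -⟩
  have hn : (0 : ℝ) ≤ n := Nat.cast_nonneg n
  have h1 := e1 (by positivity)
  rw [le_div_iff₀ (by positivity)] at h1
  nlinarith

/-- `G > 0` off the diagonal. -/
theorem GG_pos (h : PkOk q d) (h0 : 0 < d.r2 z) : 0 < GG q d z :=
  h.sl.G_pos (ff q d z, rr d z) (Real.sqrt_pos.2 h0)

/-- `|u - l(x) - l(y)| ≤ 1/4`. -/
theorem u_u0 (h : PkOk q d) (z : VV n) : |d.u q z - d.u0 z| ≤ 1 / 4 := by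
  have e : d.u q z - d.u0 z = 2 * (d.χ (d.r2 z) * d.μc q (d.l (mid z))) := by
    show d.l z.1 + d.l z.2 + 2 * (d.χ (d.r2 z) * d.μc q (d.l (mid z))) - (d.l z.1 + d.l z.2) = _
    ring
  have h1 := h.χb (d.r2 z)
  have h2 := (d.μc_abs q (d.l (mid z))).trans (h.ph.μb _)
  have h3 : |d.χ (d.r2 z)| ≤ 1 := by rw [abs_of_nonneg h1.1]; exact h1.2
  have h4 : |d.χ (d.r2 z) * d.μc q (d.l (mid z))| ≤ 1 * (1 / 8) := by
    rw [abs_mul]
    exact mul_le_mul h3 h2 (abs_nonneg _) zero_le_one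
  rw [e, abs_mul, abs_of_pos (by norm_num : (0 : ℝ) < 2)]
  linarith

/-- The slope changes at most by a factor. -/
theorem N_lip (h : PkOk q d) (hM : 1 ≤ q.M₀) (hL : 0 ≤ q.L) {u v : ℝ} (huv : |u - v| ≤ 1 / 4) :
    deriv d.Φ u ≤ Real.exp ((q.L + 1 / 20) / 4) * deriv d.Φ v := by
  have hmono : Monotone (deriv d.Φ) :=
    monotone_of_deriv_nonneg (h.Φ's.differentiable (by simp)) fun u => (h.top.k0 u).le
  have hv := h.N_pos hM v
  have hu := h.N_pos hM u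
  rcases le_total u v with h1 | h1
  · refine (hmono h1).trans (le_mul_of_one_le_left hv.le ?_)
    exact Real.one_le_exp (by positivity)
  · have hd : ∀ t, HasDerivAt (fun u => Real.log (deriv d.Φ u))
        (deriv (deriv d.Φ) t / deriv d.Φ t) t := fun t =>
      ((h.Φ's.differentiable (by simp) t).hasDerivAt).log (h.N_pos hM t).ne'
    have hL' : 0 ≤ q.L + 1 / 20 := by linarith
    have h2 := (convex_Icc v u).norm_image_sub_le_of_norm_hasDerivWithin_le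
      (f := fun u => Real.log (deriv d.Φ u)) (C := q.L + 1 / 20)
      (fun t _ => (hd t).hasDerivWithinAt) (fun t _ => by
        have a1 := h.top.k2 t
        have a2 := h.N_pos hM t
        have a3 := h.top.k0 t
        rw [Real.norm_eq_abs, abs_of_nonneg (div_nonneg a3.le a2.le), div_le_iff₀ a2]
        exact a1) ⟨le_rfl, h1⟩ ⟨h1, le_rfl⟩
    rw [Real.norm_eq_abs, Real.norm_eq_abs] at h2
    have h3 : Real.log (deriv d.Φ u) ≤ Real.log (deriv d.Φ v) + (q.L + 1 / 20) / 4 := by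
      have := (abs_le.1 h2).2
      have h5 : (q.L + 1 / 20) * |u - v| ≤ (q.L + 1 / 20) * (1 / 4) :=
        mul_le_mul_of_nonneg_left huv hL'
      linarith
    calc deriv d.Φ u = Real.exp (Real.log (deriv d.Φ u)) := (Real.exp_log hu).symm
      _ ≤ Real.exp (Real.log (deriv d.Φ v) + (q.L + 1 / 20) / 4) := Real.exp_le_exp.2 h3
      _ = Real.exp ((q.L + 1 / 20) / 4) * deriv d.Φ v := by
        rw [Real.exp_add, Real.exp_log hv, mul_comm]

/-- `G = E S(r²)` where `r < r₁ / e`. -/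
theorem GG_in (h : PkOk q d) (he : 0 < q.e₁) (h0 : 0 < d.r2 z)
    (h1 : rr d z < q.r₁ * Real.exp (-1)) : GG q d z = d.E q z * prS q.e₁ (d.r2 z) := by
  have hr : 0 < rr d z := Real.sqrt_pos.2 h0
  have h2 : rr d z ^ 2 = d.r2 z := Real.sq_sqrt h0.le
  have h3 := h.sl.inn 1 0 (ff q d z, rr d z) hr h1
  rw [if_pos rfl] at h3
  unfold GG D₂
  rw [h3]
  show Real.exp (d.u q z + lS q (rr d z)) = _
  unfold lS
  have h4 : 0 < prS q.e₁ (d.r2 z) := (H281.EP.pp_ok he).S_pos h0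
  rw [Real.exp_add, h2, Real.exp_log h4]
  rfl

/-- A radius given before `M₀` is smaller than `r₁ / e`. -/
theorem ev_r₁ {a : Cst → ℝ} (ha : NB_M₀ a) :
    EvC fun q => 0 < q.c' → a q < q.r₁ * Real.exp (-1) := by
  have h := EvC.at_M₀ (fun q t => 0 < q.c' → a q < q.c' * t / 2 * Real.exp (-1)) fun q => by
    by_cases h : 0 < q.c'
    · have h1 : Tendsto (fun t : ℝ => q.c' * t / 2 * Real.exp (-1)) atTop atTop := by
        refine Tendsto.atTop_mul_const (Real.exp_pos _) ?_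
        refine Tendsto.atTop_div_const two_pos ?_
        exact Tendsto.const_mul_atTop h tendsto_id
      exact (h1.eventually_gt_atTop _).mono fun _ h2 _ => h2
    · exact Eventually.of_forall fun _ h1 => absurd h1 h
  refine h.mono fun q hq h0 => ?_
  have e1 := ha q
  have h2 := hq h0
  rw [e1] at h2
  exact h2

end Vale.Agent.P088.R2.H737.G
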