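import Vale.Agent.P088.R2.H737.G.Gn

/-!
# P088, stage 3, row GAIN: the lower bounds of the margins on `A1`, `A2`, `Af`, `T1`, `T2`
-/

open Set Filter
open scoped ContDiff Topology Matrix

noncomputable section

namespace Vale.Agent.P088.R2.H737.G

open Vale.Agent.P088.LR Vale.Agent.P088.HY
open Vale.Agent.P088.R2.H31.EP
open Vale.Agent.P088.R2.H961.GW
open Vale.Agent.P088.R2.H867.EP (Zo)
open Vale.Agent.P088.R2.H747.A (OmA OmB GG NG ff rr lS D₂ Wx2 Wy2 mA)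
open Vale.Agent.P088.R2.H850.E (lw)

variable {n : ℕ} {q : Cst} {d : Pk n} {z : VV n}

/-- **The leaves `A1`, `A2`, `Af`.** -/
theorem lo_A (n : ℕ) (hS : H747.A.RowSup n) (μ₀ : Cst → ℝ) (hμ : ∀ q, 0 < μ₀ q) (κ₀ : Cst → ℝ)
    {k : Zo} (hk : k ∈ ({.A1, .A2, .Af} : Set Zo)) :
    RowLo n k NG fun q d => H747.SW.MA d.sx d.sy (d.W q) (mA μ₀ q d) (κ₀ q) := by
  refine ⟨fun q => q.σ * q.rT ^ 2 / 153600, fun _ => rfl, ?_⟩
  refine ((EvC.pos.and (ev_ε n)).and (hS k hk)).mono ?_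
  rintro q ⟨⟨⟨⟨a1, a2, a3, a4, a5, a6, a7, a8, a9, a10⟩, ⟨b1, b2, b3, b4, b5, b6, b7⟩, c1, c2, c3,
    c4, c5, c6⟩, hε⟩, e3⟩
  refine ⟨by positivity, fun d hd z hz => ?_⟩
  obtain ⟨h1, h2, h3⟩ := (e3 d hd).2 (subset_tsupport _ hz)
  have hr2 : 0 < d.r2 z := lt_of_le_of_lt (sq_nonneg _) h1.1
  have hG := GG_pos hd hr2
  have hN : 1 ≤ d.N q z := c1.trans (hd.N_ge _)
  have hNG : NG q d z = d.N q z + GG q d z := rfl
  have hNG1 : 1 ≤ NG q d z := by rw [hNG]; linarith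
  have hNG3 : NG q d z ^ 2 ≤ NG q d z ^ 3 := pow_le_pow_right₀ hNG1 (by norm_num)
  have hR : 0 < q.R := by linarith
  have hm : q.σ / (400 * q.R) * NG q d z ≤ mA μ₀ q d z := by
    have h5 : 0 ≤ μ₀ q * (GG q d z / rr d z) :=
      mul_nonneg (hμ q).le (div_nonneg hG.le (Real.sqrt_nonneg _))
    unfold mA
    linarith
  have key : ∀ F X : ℝ, 1 / 2 * X ≤ F → (q.rT / 8 * NG q d z) ^ 2 < X →
      3 * (q.σ * q.rT ^ 2 / 153600 / q.R * NG q d z ^ 2) ≤ mA μ₀ q d z * F := by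
    intro F X hF hX
    have h5 : q.rT ^ 2 * NG q d z ^ 2 / 128 ≤ F := by nlinarith
    have h6 : 0 ≤ q.rT ^ 2 * NG q d z ^ 2 / 128 := by positivity
    have h7 : 0 ≤ q.σ / (400 * q.R) * NG q d z := by positivity
    have h8 := mul_le_mul hm h5 h6 (h7.trans hm)
    refine le_trans ?_ h8
    have e5 : q.σ / (400 * q.R) * NG q d z * (q.rT ^ 2 * NG q d z ^ 2 / 128) =
        q.σ * q.rT ^ 2 / (51200 * q.R) * NG q d z ^ 3 := by
      field_simp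
      ring
    have e6 : 3 * (q.σ * q.rT ^ 2 / 153600 / q.R * NG q d z ^ 2) =
        q.σ * q.rT ^ 2 / (51200 * q.R) * NG q d z ^ 2 := by
      field_simp
      ring
    rw [e5, e6]
    exact mul_le_mul_of_nonneg_left hNG3 (by positivity)
  exact H850.E.lw_MA (key _ _ (F_x hd hε _ z) h2) (key _ _ (F_y hd hε _ z) h3)

/-! ## The tubes -/

/-- On the leaf `k`: `Φ' ≥ a e^u` (helper509, TG). -/
def RowTub (n : ℕ) (k : Zo) : Prop := ∃ a : Cst → ℝ, NB_R a ∧ EvC fun q => 0 < a q ∧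
  ∀ d : Pk n, PkOk q d → ∀ z, d.ch q k z ≠ 0 →
    a q * Real.exp (d.u0 z) ≤ deriv d.Φ (d.u0 z)

/-- `N + G` against the slope at `l(x) + l(y)`, inside of a ball. -/
theorem NG_le {a b : ℝ} (h : PkOk q d) (hM : 1 ≤ q.M₀) (hL : 0 ≤ q.L) (he : 0 < q.e₁)
    (ha : 0 < a) (h0 : 0 < d.r2 z) (h1 : d.r2 z ≤ b ^ 2) (hb : 0 ≤ b)
    (h2 : b < q.r₁ * Real.exp (-1)) (hN : a * Real.exp (d.u0 z) ≤ deriv d.Φ (d.u0 z)) :
    NG q d z ≤ (Real.exp ((q.L + 1 / 20) / 4) + Real.exp (1 / 4) * prS q.e₁ (b ^ 2) / a) *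
      deriv d.Φ (d.u0 z) := by
  have hu := u_u0 h z
  have k1 : d.N q z ≤ Real.exp ((q.L + 1 / 20) / 4) * deriv d.Φ (d.u0 z) := N_lip h hM hL hu
  have hr : rr d z < q.r₁ * Real.exp (-1) :=
    lt_of_le_of_lt (Real.sqrt_le_left hb |>.2 h1) h2
  have k2 := GG_in h he h0 hr
  have hS0 : 0 ≤ prS q.e₁ (b ^ 2) := by
    rcases (sq_nonneg b).lt_or_eq with h5 | h5
    · exact ((H281.EP.pp_ok he).S_pos h5).le
    · have : 0 < b ^ 2 := lt_of_lt_of_le h0 h1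
      linarith
  have k3 : prS q.e₁ (d.r2 z) ≤ prS q.e₁ (b ^ 2) :=
    H281.EP.prS_mono he (mem_Ici.2 h0.le) (mem_Ici.2 (sq_nonneg b)) h1
  have k4 : d.E q z ≤ Real.exp (1 / 4) * Real.exp (d.u0 z) := by
    rw [← Real.exp_add]
    exact Real.exp_le_exp.2 (by linarith [(abs_le.1 hu).2])
  have k5 : GG q d z ≤ Real.exp (1 / 4) * prS q.e₁ (b ^ 2) / a * deriv d.Φ (d.u0 z) := by
    rw [k2]
    have a1 : d.E q z * prS q.e₁ (d.r2 z) ≤
        Real.exp (1 / 4) * Real.exp (d.u0 z) * prS q.e₁ (b ^ 2) :=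
      mul_le_mul k4 k3 (by
        rcases h0.le.lt_or_eq with h5 | h5
        · exact ((H281.EP.pp_ok he).S_pos h5).le
        · linarith) (by positivity)
    refine a1.trans ?_
    rw [div_mul_eq_mul_div, le_div_iff₀ ha]
    have a2 : 0 ≤ Real.exp (1 / 4) * prS q.e₁ (b ^ 2) := mul_nonneg (Real.exp_pos _).le hS0
    nlinarith [mul_le_mul_of_nonneg_left hN a2]
  have e : NG q d z = d.N q z + GG q d z := rfl
  rw [e]
  linarith

/-- Common part of the two tubes. -/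
theorem lo_T {k : Zo} (hk : k = .T1 ∨ k = .T2) {c : Cst → ℝ} (hc : NB_R c)
    (hc0 : EvC fun q => 0 < c q) (hT : RowTub n k) {M : Cst → Pk n → H551.E.Q8 (VV n)}
    (hM : ∀ q (d : Pk n) z, 0 < c q → 1 ≤ deriv d.Φ (d.u0 z) →
      c q * deriv d.Φ (d.u0 z) ^ 2 ≤ lw (M q d) z) : RowLo n k NG M := by
  obtain ⟨a, ha, hT⟩ := hT
  let A : Cst → ℝ := fun q =>
    Real.exp ((q.L + 1 / 20) / 4) + Real.exp (1 / 4) * prS q.e₁ (q.p₂ ^ 2) / a q
  have hA : NB_R A := fun q => by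
    show Real.exp ((q.L + 1 / 20) / 4) + Real.exp (1 / 4) * prS q.e₁ (q.p₂ ^ 2) / a q.b_R = _
    rw [ha q]
  refine ⟨fun q => c q / A q ^ 2, fun q => by simp only [hc q, hA q], ?_⟩
  have hr := ev_r₁ (a := fun q => q.p₂) fun _ => rfl
  refine ((EvC.pos.and EvC.rad).and ((EvC.cpOk n).and (hr.and (hc0.and hT)))).mono ?_
  rintro q ⟨⟨⟨⟨a1, a2, a3, a4, a5, a6, a7, a8, a9, a10⟩, ⟨b1, b2, b3, b4, b5, b6, b7⟩, c1, c2, c3,
    c4, c5, c6⟩, hrad⟩, hcp, hr, hc0, ha0, hT⟩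
  have hp : 0 < q.p₂ := lt_of_lt_of_le (by norm_num) ((Cst.p₁_ge hrad).trans (Cst.p₁_lt hrad).le)
  have hS : 0 < prS q.e₁ (q.p₂ ^ 2) := (H281.EP.pp_ok a2).S_pos (by positivity)
  have hA0 : 0 < A q := by
    show 0 < Real.exp _ + _
    positivity
  have hR : 0 < q.R := by linarith
  refine ⟨by positivity, fun d hd z hz => ?_⟩
  have hP := hcp d hd
  have hOff : H867.EP.Off k := by rcases hk with rfl | rfl <;> simp [H867.EP.Off]
  have r1 : q.c₀ ^ 2 ≤ d.r2 z := sd_off hz hOff hP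
  have r2 : d.r2 z ≤ q.p₂ ^ 2 := sd_T hz (by rcases hk with rfl | rfl <;> simp) hP
  have r0 : 0 < d.r2 z := lt_of_lt_of_le (by positivity) r1
  have hL : 0 ≤ q.L := by
    unfold Cst.L
    positivity
  have k1 := NG_le hd c1 hL a2 ha0 r0 r2 hp.le (hr b3) (hT d hd z hz)
  have hN1 : 1 ≤ deriv d.Φ (d.u0 z) := c1.trans (hd.N_ge _)
  have hNG0 : 0 ≤ NG q d z := by
    have h1 := GG_pos hd r0
    have h2 : 1 ≤ d.N q z := c1.trans (hd.N_ge _)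
    have e : NG q d z = d.N q z + GG q d z := rfl
    rw [e]; linarith
  have k2 : NG q d z ^ 2 ≤ A q ^ 2 * deriv d.Φ (d.u0 z) ^ 2 := by
    rw [← mul_pow]
    exact pow_le_pow_left₀ hNG0 k1 2
  refine le_trans ?_ (hM q d z hc0 hN1)
  have k3 : c q / A q ^ 2 / q.R * NG q d z ^ 2 ≤ c q / A q ^ 2 * NG q d z ^ 2 := by
    refine mul_le_mul_of_nonneg_right ?_ (sq_nonneg _)
    exact div_le_self (by positivity) c6
  refine k3.trans ?_
  calc c q / A q ^ 2 * NG q d z ^ 2 ≤ c q / A q ^ 2 * (A q ^ 2 * deriv d.Φ (d.u0 z) ^ 2) :=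
        mul_le_mul_of_nonneg_left k2 (by positivity)
    _ = c q * deriv d.Φ (d.u0 z) ^ 2 := by field_simp

/-- **The leaf `T1`.** -/
theorem lo_T1 {c : Cst → ℝ} (hc : NB_R c) (hc0 : EvC fun q => 0 < c q) (hT : RowTub n .T1) :
    RowLo n .T1 NG fun q d => H509.PT.MT1 (c q) fun z => deriv d.Φ (d.u0 z) :=
  lo_T (Or.inl rfl) hc hc0 hT fun q d z h1 h2 => by
    unfold lw H509.PT.MT1
    simp only [min_self, mul_zero, add_zero]
    refine le_min le_rfl (mul_le_mul_of_nonneg_left ?_ h1.le)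
    exact pow_le_pow_right₀ h2 (by norm_num)

/-- **The leaf `T2`.** -/
theorem lo_T2 {c : Cst → ℝ} (hc : NB_R c) (hc0 : EvC fun q => 0 < c q) (hT : RowTub n .T2) :
    RowLo n .T2 NG fun q d => H509.PT.MT2 (c q) fun z => deriv d.Φ (d.u0 z) :=
  lo_T (Or.inr rfl) hc hc0 hT fun q d z h1 h2 => by
    unfold lw H509.PT.MT2
    simp only [min_self, mul_zero, add_zero]
    refine le_min (mul_le_mul_of_nonneg_left ?_ h1.le) le_rfl
    exact pow_le_pow_right₀ h2 (by norm_num)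

end Vale.Agent.P088.R2.H737.G
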