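import Vale.Agent.P088.R2.H737.G.Gn
import Vale.Agent.P088.R2.H303.F.Spec
import Vale.Agent.P088.R2.H31.EP.Thx

/-!
# P088, stage 3, row GAIN: the lower bound of the margin on the leaf `iF`
-/

open Set Filter
open scoped ContDiff Topology Matrix

noncomputable section

namespace Vale.Agent.P088.R2.H737.G

open Vale.Agent.P088.LR Vale.Agent.P088.HY
open Vale.Agent.P088.R2.H31.EP
open Vale.Agent.P088.R2.H961.GW
open Vale.Agent.P088.R2.H464.Cu (mid dif rq bf)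
open Vale.Agent.P088.R2.H867.EP (Zo)
open Vale.Agent.P088.R2.H747.A (GG NG ff rr)
open Vale.Agent.P088.R2.H850.E (lw)

variable {n : ℕ} {q : Cst} {d : Pk n} {z : VV n}

/-- Beyond `r = 2` the correction is not seen. -/
theorem u_eq (h : PkOk q d) (h4 : 4 ≤ d.r2 z) : d.u q z = d.u0 z := by
  have e : d.u q z = d.l z.1 + d.l z.2 + 2 * (d.χ (d.r2 z) * d.μc q (d.l (mid z))) := rfl
  rw [e, h.χ0 _ h4]
  show _ = d.l z.1 + d.l z.2
  ring

/-- `n = N + G` for helper269's functions. -/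
theorem nn_eq (h : PkOk q d) (h4 : 4 ≤ d.r2 z) : H269.INF.nn q d z = NG q d z := by
  have hu := u_eq h h4
  have e1 : H269.INF.nn q d z = deriv d.Φ (d.u0 z) +
      q.D 1 0 (d.u0 z + Real.log (prS q.e₁ (d.r2 z)), √(d.r2 z)) := rfl
  have hs : √(d.r2 z) ^ 2 = d.r2 z := Real.sq_sqrt (by linarith)
  have e2 : NG q d z = deriv d.Φ (d.u q z) +
      q.D 1 0 (d.u q z + Real.log (prS q.e₁ (√(d.r2 z) ^ 2)), √(d.r2 z)) := rfl
  rw [e1, e2, hu, hs]

/-- On the far region `r ≥ 2`. -/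
theorem ev_far (n : ℕ) : EvC fun q => ∀ d : Pk n, PkOk q d → ∀ z ∈ H269.INF.UF q.κ₁ q d,
    4 ≤ d.r2 z := by
  have h1 : EvC fun q => 0 < q.κ₁ → 12 / q.κ₁ ≤ q.R :=
    EvC.at_R (fun q t => 0 < q.κ₁ → 12 / q.κ₁ ≤ t) fun q =>
      (eventually_ge_atTop (12 / q.κ₁)).mono fun _ h _ => h
  refine ((EvC.pos.and (EvC.rq n)).and h1).mono ?_
  rintro q ⟨⟨⟨-, ⟨hκ, -⟩, -⟩, hr⟩, h1⟩ d hd z hz
  have h2 := h1 hκ
  rw [div_le_iff₀ hκ] at h2
  have h3 := ((hr d hd).2 z).2.1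
  have h4 : (q.κ₁ * q.R / 4) ^ 2 < HY.sq (z.1 - z.2) := hz.2.2
  have h5 : d.r2 z = 2 * H464.Cu.rq (gi d.s₁) z := rfl
  have h6 : qq z = HY.sq (z.1 - z.2) := rfl
  rw [h5]
  rw [h6] at h3
  nlinarith

/-- **The leaf `iF`** (helper303's letters and row G). -/
theorem lo_iF {c : ℝ} (hc : 0 < c) (κ₀ : ℝ) (hG : H303.F.RowG n) :
    RowLo n .iF NG fun q d => H303.F.MU d.sx d.sy (d.W q) (H303.F.mX c q d) (H303.F.mY c q d) κ₀ := by
  refine ⟨fun q => c * q.σ / 300, fun _ => rfl, ?_⟩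
  refine (((EvC.pos.and H404.INF.evInf).and (ev_far n)).and hG).mono ?_
  rintro q ⟨⟨⟨⟨-, ⟨-, hσ, -⟩, hM, -, -, -, -, hR⟩, hI⟩, hf⟩, hG⟩
  refine ⟨by positivity, fun d hd z hz => ?_⟩
  have hO : z ∈ H303.F.OmP q d :=
    H303.F.far_OmP hI (H404.INF.far_supp hI hd (subset_tsupport _ hz)) hd
  have h4 := hf d hd z hO.1
  have hr0 : 0 < d.r2 z := by linarith
  have hR0 : 0 < q.R := by linarith
  obtain ⟨g1, g2⟩ := hG d hd z hO
  have hNG : NG q d z = d.N q z + GG q d z := rfl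
  have hN1 : 1 ≤ NG q d z := by
    have := GG_pos hd hr0
    have : 1 ≤ d.N q z := hM.trans (hd.N_ge _)
    rw [hNG]; linarith
  have hx : NG q d z ≤ H269.INF.nx q d z := by
    rw [← nn_eq hd h4]
    exact le_add_of_nonneg_right (hd.Θd0 hR0 _)
  have hy : NG q d z ≤ H269.INF.ny q d z := by
    rw [← nn_eq hd h4]
    exact le_add_of_nonneg_right (hd.Θd0 hR0 _)
  have key : ∀ F x : ℝ, NG q d z ≤ x → 1 / 100 * x ^ 2 ≤ F →
      c * q.σ / 300 / q.R * NG q d z ^ 2 ≤ 1 / 3 * (c * (q.σ / q.R) * x * F) := by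
    intro F x hx hF
    have k0 : 0 ≤ c * (q.σ / q.R) * x := by
      have : 0 ≤ x := by linarith
      positivity
    have k1 : c * (q.σ / q.R) * x * (1 / 100 * x ^ 2) ≤ c * (q.σ / q.R) * x * F :=
      mul_le_mul_of_nonneg_left hF k0
    have k2 : NG q d z ^ 2 ≤ x ^ 3 := by
      have a1 : NG q d z ^ 2 ≤ x ^ 2 := pow_le_pow_left₀ (by linarith) hx 2
      have a2 : x ^ 2 ≤ x ^ 3 := pow_le_pow_right₀ (by linarith) (by norm_num)
      exact a1.trans a2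
    have k3 : c * (q.σ / q.R) * NG q d z ^ 2 ≤ c * (q.σ / q.R) * x ^ 3 :=
      mul_le_mul_of_nonneg_left k2 (by positivity)
    have e1 : c * q.σ / 300 / q.R * NG q d z ^ 2 = 1 / 300 * (c * (q.σ / q.R) * NG q d z ^ 2) := by
      ring
    have e2 : c * (q.σ / q.R) * x * (1 / 100 * x ^ 2) = 1 / 100 * (c * (q.σ / q.R) * x ^ 3) := by
      ring
    rw [e1]
    rw [e2] at k1
    linarith
  unfold lw H303.F.MU
  simp only [min_self, mul_zero, add_zero]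
  exact le_min (key _ _ hx g1) (key _ _ hy g2)

end Vale.Agent.P088.R2.H737.G
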